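import Vale.Agent.Lib.P226.Gauss1D

/-!
# Per-cell bounds for the Gaussian first moment (P226)
-/

open MeasureTheory ProbabilityTheory Real Set
open scoped RealInnerProductSpace

namespace Vale.Agent.Lib.P226

noncomputable section

lemma map_dual_std (d : ℕ) (u : EuclideanSpace ℝ (Fin d)) (hu : ‖u‖ = 1) :
    (stdGaussian (EuclideanSpace ℝ (Fin d))).map (innerSL ℝ u) = gaussianReal 0 1 := by
  rw [IsGaussian.map_eq_gaussianReal (innerSL ℝ u), integral_strongDual_stdGaussian,
    variance_dual_stdGaussian, innerSL_apply_norm, hu]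
  simp

/-- Reduction of the norm of the first moment of a cell to a one-dimensional integral. -/
lemma norm_eq_dual (d : ℕ) (A : Set (EuclideanSpace ℝ (Fin d)))
    (hz : ∫ x in A, x ∂(stdGaussian (EuclideanSpace ℝ (Fin d))) ≠ 0) :
    ∃ u : EuclideanSpace ℝ (Fin d), ‖u‖ = 1 ∧
      ‖∫ x in A, x ∂(stdGaussian (EuclideanSpace ℝ (Fin d)))‖
        = ∫ x in A, innerSL ℝ u x ∂(stdGaussian (EuclideanSpace ℝ (Fin d))) := by
  set z := ∫ x in A, x ∂(stdGaussian (EuclideanSpace ℝ (Fin d))) with hzdef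
  refine ⟨‖z‖⁻¹ • z, norm_smul_inv_norm hz, ?_⟩
  have hint : Integrable (fun x : EuclideanSpace ℝ (Fin d) => x)
      (stdGaussian (EuclideanSpace ℝ (Fin d))) := IsGaussian.integrable_id
  rw [ContinuousLinearMap.integral_comp_comm (innerSL ℝ (‖z‖⁻¹ • z)) hint.integrableOn]
  rw [← hzdef, innerSL_apply_apply, real_inner_smul_left, real_inner_self_eq_norm_sq]
  have : ‖z‖ ≠ 0 := norm_ne_zero_iff.mpr hz
  field_simp

lemma integrable_dual_std (d : ℕ) (u : EuclideanSpace ℝ (Fin d)) :
    Integrable (fun x : EuclideanSpace ℝ (Fin d) => innerSL ℝ u x)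
      (stdGaussian (EuclideanSpace ℝ (Fin d))) :=
  IsGaussian.integrable_dual _ (innerSL ℝ u)

lemma integrable_posPart_std (d : ℕ) (u : EuclideanSpace ℝ (Fin d)) (t : ℝ) :
    Integrable (fun x : EuclideanSpace ℝ (Fin d) => max (innerSL ℝ u x - t) 0)
      (stdGaussian (EuclideanSpace ℝ (Fin d))) :=
  ((integrable_dual_std d u).sub (integrable_const t)).pos_part

/-- First per-cell bound: for every threshold `t ≥ 0`. -/
lemma cell_le (d : ℕ) (A : Set (EuclideanSpace ℝ (Fin d)))
    (t : ℝ) (ht : 0 ≤ t) :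
    ‖∫ x in A, x ∂(stdGaussian (EuclideanSpace ℝ (Fin d)))‖
      ≤ t * ((stdGaussian (EuclideanSpace ℝ (Fin d))) A).toReal
        + ∫ y, max (y - t) 0 ∂(gaussianReal 0 1) := by
  by_cases hz : ∫ x in A, x ∂(stdGaussian (EuclideanSpace ℝ (Fin d))) = 0
  · rw [hz, norm_zero]
    have h1 : 0 ≤ t * ((stdGaussian (EuclideanSpace ℝ (Fin d))) A).toReal :=
      mul_nonneg ht ENNReal.toReal_nonneg
    have h2 : 0 ≤ ∫ y, max (y - t) 0 ∂(gaussianReal 0 1) :=
      integral_nonneg (fun y => le_max_right _ _)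
    linarith
  · obtain ⟨u, hu, hnorm⟩ := norm_eq_dual d A hz
    rw [hnorm]
    have hL := integrable_dual_std d u
    have hP := integrable_posPart_std d u t
    have h2 : ∫ x in A, innerSL ℝ u x ∂(stdGaussian (EuclideanSpace ℝ (Fin d)))
        ≤ ∫ x in A, (t + max (innerSL ℝ u x - t) 0) ∂(stdGaussian (EuclideanSpace ℝ (Fin d))) := by
      refine setIntegral_mono hL.integrableOn ((integrable_const t).add hP).integrableOn
        (fun x => ?_)
      have := le_max_left (innerSL ℝ u x - t) 0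
      linarith
    have h3 : ∫ x in A, (t + max (innerSL ℝ u x - t) 0) ∂(stdGaussian (EuclideanSpace ℝ (Fin d)))
        = t * ((stdGaussian (EuclideanSpace ℝ (Fin d))) A).toReal
          + ∫ x in A, max (innerSL ℝ u x - t) 0 ∂(stdGaussian (EuclideanSpace ℝ (Fin d))) := by
      rw [integral_add (integrable_const t).integrableOn hP.integrableOn, setIntegral_const]
      simp [Measure.real, mul_comm]
    have h4 : ∫ x in A, max (innerSL ℝ u x - t) 0 ∂(stdGaussian (EuclideanSpace ℝ (Fin d)))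
        ≤ ∫ x, max (innerSL ℝ u x - t) 0 ∂(stdGaussian (EuclideanSpace ℝ (Fin d))) :=
      setIntegral_le_integral hP (Filter.Eventually.of_forall (fun x => le_max_right _ _))
    have h5 : ∫ x, max (innerSL ℝ u x - t) 0 ∂(stdGaussian (EuclideanSpace ℝ (Fin d)))
        = ∫ y, max (y - t) 0 ∂(gaussianReal 0 1) := by
      rw [← map_dual_std d u hu]
      rw [integral_map (innerSL ℝ u).continuous.aemeasurable]
      exact (Continuous.aestronglyMeasurable (by fun_prop))
    linarith

lemma integrable_posPart_sq_std (d : ℕ) (u : EuclideanSpace ℝ (Fin d)) (t : ℝ) :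
    Integrable (fun x : EuclideanSpace ℝ (Fin d) => (max (innerSL ℝ u x - t) 0)^2)
      (stdGaussian (EuclideanSpace ℝ (Fin d))) := by
  have h2 : MemLp (fun x : EuclideanSpace ℝ (Fin d) => innerSL ℝ u x) 2
      (stdGaussian (EuclideanSpace ℝ (Fin d))) :=
    IsGaussian.memLp_dual _ (innerSL ℝ u) 2 (by simp)
  have h3 : MemLp (fun x : EuclideanSpace ℝ (Fin d) => innerSL ℝ u x - t) 2
      (stdGaussian (EuclideanSpace ℝ (Fin d))) := h2.sub (memLp_const t)
  have h4 : MemLp (fun x : EuclideanSpace ℝ (Fin d) => max (innerSL ℝ u x - t) 0) 2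
      (stdGaussian (EuclideanSpace ℝ (Fin d))) := by
    refine h3.mono (Continuous.aestronglyMeasurable (by fun_prop))
      (Filter.Eventually.of_forall (fun x => ?_))
    simp only [Real.norm_eq_abs]
    rcases le_total (innerSL ℝ u x - t) 0 with h | h
    · rw [max_eq_right h]; simp
    · rw [max_eq_left h]
  exact h4.integrable_sq

/-- Second per-cell bound: for every threshold `t ≥ 0` and every `lam > 0`. -/
lemma cell_le2 (d : ℕ) (A : Set (EuclideanSpace ℝ (Fin d)))
    (t : ℝ) (ht : 0 ≤ t) (lam : ℝ) (hlam : 0 < lam) :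
    ‖∫ x in A, x ∂(stdGaussian (EuclideanSpace ℝ (Fin d)))‖
      ≤ (t + lam / 2) * ((stdGaussian (EuclideanSpace ℝ (Fin d))) A).toReal
        + (∫ y, (max (y - t) 0)^2 ∂(gaussianReal 0 1)) / (2 * lam) := by
  by_cases hz : ∫ x in A, x ∂(stdGaussian (EuclideanSpace ℝ (Fin d))) = 0
  · rw [hz, norm_zero]
    have h1 : 0 ≤ (t + lam / 2) * ((stdGaussian (EuclideanSpace ℝ (Fin d))) A).toReal :=
      mul_nonneg (by positivity) ENNReal.toReal_nonneg
    have h2 : 0 ≤ (∫ y, (max (y - t) 0)^2 ∂(gaussianReal 0 1)) / (2 * lam) :=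
      div_nonneg (integral_nonneg (fun y => sq_nonneg _)) (by positivity)
    linarith
  · obtain ⟨u, hu, hnorm⟩ := norm_eq_dual d A hz
    rw [hnorm]
    have hL := integrable_dual_std d u
    have hP := integrable_posPart_sq_std d u t
    have hP' : Integrable (fun x : EuclideanSpace ℝ (Fin d) =>
        (max (innerSL ℝ u x - t) 0)^2 / (2 * lam)) (stdGaussian (EuclideanSpace ℝ (Fin d))) :=
      hP.div_const _
    have h2 : ∫ x in A, innerSL ℝ u x ∂(stdGaussian (EuclideanSpace ℝ (Fin d)))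
        ≤ ∫ x in A, ((t + lam / 2) + (max (innerSL ℝ u x - t) 0)^2 / (2 * lam))
            ∂(stdGaussian (EuclideanSpace ℝ (Fin d))) := by
      refine setIntegral_mono hL.integrableOn ((integrable_const _).add hP').integrableOn
        (fun x => ?_)
      have h1 := le_max_left (innerSL ℝ u x - t) 0
      have h0 := le_max_right (innerSL ℝ u x - t) 0
      have key : max (innerSL ℝ u x - t) 0 ≤ lam / 2 + (max (innerSL ℝ u x - t) 0)^2 / (2 * lam) := by
        rw [← sub_nonneg]
        have : lam / 2 + (max (innerSL ℝ u x - t) 0)^2 / (2 * lam) - max (innerSL ℝ u x - t) 0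
            = (max (innerSL ℝ u x - t) 0 - lam)^2 / (2 * lam) := by
          field_simp
          ring
        rw [this]
        positivity
      linarith
    have h3 : ∫ x in A, ((t + lam / 2) + (max (innerSL ℝ u x - t) 0)^2 / (2 * lam))
            ∂(stdGaussian (EuclideanSpace ℝ (Fin d)))
        = (t + lam / 2) * ((stdGaussian (EuclideanSpace ℝ (Fin d))) A).toReal
          + (∫ x in A, (max (innerSL ℝ u x - t) 0)^2 ∂(stdGaussian (EuclideanSpace ℝ (Fin d))))
            / (2 * lam) := by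
      rw [integral_add (integrable_const _).integrableOn hP'.integrableOn, setIntegral_const,
        integral_div]
      simp [Measure.real, mul_comm]
    have h4 : ∫ x in A, (max (innerSL ℝ u x - t) 0)^2 ∂(stdGaussian (EuclideanSpace ℝ (Fin d)))
        ≤ ∫ x, (max (innerSL ℝ u x - t) 0)^2 ∂(stdGaussian (EuclideanSpace ℝ (Fin d))) :=
      setIntegral_le_integral hP (Filter.Eventually.of_forall (fun x => sq_nonneg _))
    have h5 : ∫ x, (max (innerSL ℝ u x - t) 0)^2 ∂(stdGaussian (EuclideanSpace ℝ (Fin d)))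
        = ∫ y, (max (y - t) 0)^2 ∂(gaussianReal 0 1) := by
      rw [← map_dual_std d u hu]
      rw [integral_map (innerSL ℝ u).continuous.aemeasurable]
      exact (Continuous.aestronglyMeasurable (by fun_prop))
    have h6 : (∫ x in A, (max (innerSL ℝ u x - t) 0)^2 ∂(stdGaussian (EuclideanSpace ℝ (Fin d))))
            / (2 * lam) ≤ (∫ y, (max (y - t) 0)^2 ∂(gaussianReal 0 1)) / (2 * lam) := by
      rw [← h5]
      exact div_le_div_of_nonneg_right h4 (by positivity)
    linarith

lemma M_nonneg (t : ℝ) (ht : 0 ≤ t) : 0 ≤ 1/2 - 2 * phi0 * t + t^2/2 :=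
  le_trans (integral_nonneg (fun _ => sq_nonneg _)) (trunc_sq_le t ht)

/-- Bound A: for every threshold `t ≥ 0`. -/
lemma cell_A (d : ℕ) (A : Set (EuclideanSpace ℝ (Fin d))) (t : ℝ) (ht : 0 ≤ t) :
    ‖∫ x in A, x ∂(stdGaussian (EuclideanSpace ℝ (Fin d)))‖
      ≤ (phi0 * (1 + t^2/2 - t^4/24 + t^6/240) - t/2)
        + t * ((stdGaussian (EuclideanSpace ℝ (Fin d))) A).toReal := by
  have h1 := cell_le d A t ht
  have h2 := trunc_le t ht
  linarith

/-- Bound B (a Cauchy-Schwarz bound written without square roots). -/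
lemma cell_B (d : ℕ) (A : Set (EuclideanSpace ℝ (Fin d))) (t : ℝ) (ht : 0 ≤ t) :
    ‖∫ x in A, x ∂(stdGaussian (EuclideanSpace ℝ (Fin d)))‖
        ≤ t * ((stdGaussian (EuclideanSpace ℝ (Fin d))) A).toReal ∨
    (‖∫ x in A, x ∂(stdGaussian (EuclideanSpace ℝ (Fin d)))‖
        - t * ((stdGaussian (EuclideanSpace ℝ (Fin d))) A).toReal)^2
      ≤ ((stdGaussian (EuclideanSpace ℝ (Fin d))) A).toReal * (1/2 - 2 * phi0 * t + t^2/2) := by
  set p := ((stdGaussian (EuclideanSpace ℝ (Fin d))) A).toReal with hp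
  set n := ‖∫ x in A, x ∂(stdGaussian (EuclideanSpace ℝ (Fin d)))‖ with hn
  have hp0 : 0 ≤ p := ENNReal.toReal_nonneg
  by_cases hX : n - t * p ≤ 0
  · left; linarith
  · right
    have hX' : 0 < n - t * p := not_le.mp hX
    have hG := trunc_sq_le t ht
    have hG0 : 0 ≤ ∫ y, (max (y - t) 0)^2 ∂(gaussianReal 0 1) :=
      integral_nonneg (fun y => sq_nonneg _)
    rcases hp0.eq_or_lt with hpz | hppos
    · -- the cell is null, so its first moment vanishes
      exfalso
      have hA0 : (stdGaussian (EuclideanSpace ℝ (Fin d))) A = 0 := by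
        have := (ENNReal.toReal_eq_zero_iff _).mp hpz.symm
        rcases this with h | h
        · exact h
        · exact absurd h (measure_ne_top _ _)
      have : n = 0 := by
        rw [hn, Measure.restrict_eq_zero.mpr hA0, integral_zero_measure, norm_zero]
      rw [this, ← hpz] at hX'
      simp at hX'
    · have hlam : 0 < (n - t * p) / p := div_pos hX' hppos
      have h := cell_le2 d A t ht ((n - t * p) / p) hlam
      rw [← hn, ← hp] at h
      have e1 : (t + (n - t * p) / p / 2) * p = t * p + (n - t * p) / 2 := by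
        field_simp
      have e2 : (∫ y, (max (y - t) 0)^2 ∂(gaussianReal 0 1)) / (2 * ((n - t * p) / p))
          = p * (∫ y, (max (y - t) 0)^2 ∂(gaussianReal 0 1)) / (2 * (n - t * p)) := by
        field_simp
      rw [e1, e2] at h
      have h' : (n - t * p) / 2
          ≤ p * (∫ y, (max (y - t) 0)^2 ∂(gaussianReal 0 1)) / (2 * (n - t * p)) := by linarith
      rw [le_div_iff₀ (by positivity)] at h'
      nlinarith [mul_le_mul_of_nonneg_left hG hp0]

lemma quad_interp (A t c a b p : ℝ) (hap : a ≤ p) (hpb : p ≤ b)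
    (ha : (A + t * a)^2 ≤ c * a) (hb : (A + t * b)^2 ≤ c * b) : (A + t * p)^2 ≤ c * p := by
  rcases (le_trans hap hpb).eq_or_lt with hab | hab
  · have : p = a := le_antisymm (hab ▸ hpb) hap
    rw [this]; exact ha
  · have key : (b - a) * ((A + t * p)^2 - c * p)
        = (b - p) * ((A + t * a)^2 - c * a) + (p - a) * ((A + t * b)^2 - c * b)
          - t^2 * ((p - a) * (b - p)) * (b - a) := by ring
    have h1 : (b - p) * ((A + t * a)^2 - c * a) ≤ 0 :=
      mul_nonpos_of_nonneg_of_nonpos (by linarith) (by linarith)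
    have h2 : (p - a) * ((A + t * b)^2 - c * b) ≤ 0 :=
      mul_nonpos_of_nonneg_of_nonpos (by linarith) (by linarith)
    have h3 : 0 ≤ t^2 * ((p - a) * (b - p)) * (b - a) :=
      mul_nonneg (mul_nonneg (sq_nonneg t) (mul_nonneg (by linarith) (by linarith))) (by linarith)
    have h4 : (b - a) * ((A + t * p)^2 - c * p) ≤ 0 := by rw [key]; linarith
    have h5 : (A + t * p)^2 - c * p ≤ 0 := by
      by_contra hcon
      have hpos : 0 < (A + t * p)^2 - c * p := not_le.mp hcon
      have := mul_pos (sub_pos.mpr hab) hpos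
      linarith
    linarith

/-- Interval step: bound A with a fixed threshold `t` on a range `a ≤ p ≤ b` of cell measures. -/
lemma cell_interval (d : ℕ) (A : Set (EuclideanSpace ℝ (Fin d))) (t a b c : ℝ) (ht : 0 ≤ t)
    (hap : a ≤ ((stdGaussian (EuclideanSpace ℝ (Fin d))) A).toReal)
    (hpb : ((stdGaussian (EuclideanSpace ℝ (Fin d))) A).toReal ≤ b)
    (hP : 0 ≤ 1 + t^2/2 - t^4/24 + t^6/240)
    (ha : (0.398943 * (1 + t^2/2 - t^4/24 + t^6/240) - t/2 + t * a)^2 ≤ c * a)
    (hb : (0.398943 * (1 + t^2/2 - t^4/24 + t^6/240) - t/2 + t * b)^2 ≤ c * b) :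
    ‖∫ x in A, x ∂(stdGaussian (EuclideanSpace ℝ (Fin d)))‖^2
      ≤ c * ((stdGaussian (EuclideanSpace ℝ (Fin d))) A).toReal := by
  have h1 := cell_A d A t ht
  have h2 : phi0 * (1 + t^2/2 - t^4/24 + t^6/240)
      ≤ 0.398943 * (1 + t^2/2 - t^4/24 + t^6/240) :=
    mul_le_mul_of_nonneg_right phi0_lt.le hP
  have h3 : ‖∫ x in A, x ∂(stdGaussian (EuclideanSpace ℝ (Fin d)))‖
      ≤ (0.398943 * (1 + t^2/2 - t^4/24 + t^6/240) - t/2)
        + t * ((stdGaussian (EuclideanSpace ℝ (Fin d))) A).toReal := by linarith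
  have h4 := pow_le_pow_left₀ (norm_nonneg _) h3 2
  exact le_trans h4 (quad_interp _ t c a b _ hap hpb ha hb)

/-- Small-cell step: bound B with a fixed threshold `t` for cells of measure at most `b`. -/
lemma cell_small (d : ℕ) (A : Set (EuclideanSpace ℝ (Fin d))) (t b s c : ℝ) (ht : 0 ≤ t)
    (hpb : ((stdGaussian (EuclideanSpace ℝ (Fin d))) A).toReal ≤ b) (hs : 0 ≤ s)
    (hs2 : b * (1/2 - 2 * 0.398942 * t + t^2/2) ≤ s^2)
    (hc : t^2 * b + 2 * t * s + (1/2 - 2 * 0.398942 * t + t^2/2) ≤ c) :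
    ‖∫ x in A, x ∂(stdGaussian (EuclideanSpace ℝ (Fin d)))‖^2
      ≤ c * ((stdGaussian (EuclideanSpace ℝ (Fin d))) A).toReal := by
  set p := ((stdGaussian (EuclideanSpace ℝ (Fin d))) A).toReal with hp
  set n := ‖∫ x in A, x ∂(stdGaussian (EuclideanSpace ℝ (Fin d)))‖ with hn
  have hp0 : 0 ≤ p := ENNReal.toReal_nonneg
  have hn0 : 0 ≤ n := norm_nonneg _
  have hM0 := M_nonneg t ht
  have hMle : 1/2 - 2 * phi0 * t + t^2/2 ≤ 1/2 - 2 * 0.398942 * t + t^2/2 := by
    have := mul_le_mul_of_nonneg_right phi0_gt.le ht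
    linarith
  have hMp0 : 0 ≤ 1/2 - 2 * 0.398942 * t + t^2/2 := le_trans hM0 hMle
  have hb0 : 0 ≤ b := le_trans hp0 hpb
  have hcase1 : n ≤ t * p → n^2 ≤ c * p := by
    intro h
    have h1 : n^2 ≤ (t * p)^2 := pow_le_pow_left₀ hn0 h 2
    have h2 : (t * p)^2 ≤ t^2 * b * p := by
      have := mul_le_mul_of_nonneg_left hpb (mul_nonneg (sq_nonneg t) hp0)
      nlinarith [this]
    have h3 : t^2 * b * p ≤ c * p := by
      have : t^2 * b ≤ c := by nlinarith [mul_nonneg ht hs]
      exact mul_le_mul_of_nonneg_right this hp0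
    linarith
  rcases cell_B d A t ht with h | h
  · exact hcase1 h
  · rw [← hn, ← hp] at h
    by_cases hw : n - t * p ≤ 0
    · exact hcase1 (by linarith)
    · have hw' : 0 < n - t * p := not_le.mp hw
      have hwsq : (n - t * p)^2 ≤ p * (1/2 - 2 * 0.398942 * t + t^2/2) :=
        le_trans h (mul_le_mul_of_nonneg_left hMle hp0)
      have hws : n - t * p ≤ s := by
        by_contra hcon
        have hlt : s < n - t * p := not_le.mp hcon
        have h1 : s^2 < (n - t * p)^2 := pow_lt_pow_left₀ hlt hs (by norm_num)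
        have h2 : p * (1/2 - 2 * 0.398942 * t + t^2/2)
            ≤ b * (1/2 - 2 * 0.398942 * t + t^2/2) := mul_le_mul_of_nonneg_right hpb hMp0
        linarith
      -- n = t p + w with 0 < w ≤ s and w^2 ≤ p M
      have e : n^2 = t^2 * p * p + 2 * t * p * (n - t * p) + (n - t * p)^2 := by ring
      have h1 : t^2 * p * p ≤ t^2 * b * p := by
        have := mul_le_mul_of_nonneg_left hpb (mul_nonneg (sq_nonneg t) hp0)
        nlinarith [this]
      have h2 : 2 * t * p * (n - t * p) ≤ 2 * t * s * p := by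
        have := mul_le_mul_of_nonneg_left hws (mul_nonneg (mul_nonneg (by norm_num : (0:ℝ) ≤ 2) ht) hp0)
        nlinarith [this]
      have h3 : (t^2 * b + 2 * t * s + (1/2 - 2 * 0.398942 * t + t^2/2)) * p ≤ c * p :=
        mul_le_mul_of_nonneg_right hc hp0
      nlinarith [h1, h2, h3, hwsq]

lemma sum_measure_le_one (d k : ℕ) (A : Fin k → Set (EuclideanSpace ℝ (Fin d)))
    (hmeas : ∀ i, MeasurableSet (A i))
    (hdisj : ∀ i j, i ≠ j → Disjoint (A i) (A j)) :
    ∑ i, ((stdGaussian (EuclideanSpace ℝ (Fin d))) (A i)).toReal ≤ 1 := by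
  have hpw : Pairwise (Function.onFun Disjoint A) := fun i j hij => hdisj i j hij
  have h : (stdGaussian (EuclideanSpace ℝ (Fin d))) (⋃ i, A i)
      = ∑ i, (stdGaussian (EuclideanSpace ℝ (Fin d))) (A i) := by
    rw [measure_iUnion hpw hmeas, tsum_fintype]
  calc ∑ i, ((stdGaussian (EuclideanSpace ℝ (Fin d))) (A i)).toReal
      = (∑ i, (stdGaussian (EuclideanSpace ℝ (Fin d))) (A i)).toReal :=
        (ENNReal.toReal_sum (fun i _ => measure_ne_top _ _)).symm
    _ = ((stdGaussian (EuclideanSpace ℝ (Fin d))) (⋃ i, A i)).toReal := by rw [h]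
    _ ≤ 1 := by
        have h1 : (stdGaussian (EuclideanSpace ℝ (Fin d))) (⋃ i, A i) ≤ 1 := prob_le_one
        have := ENNReal.toReal_mono ENNReal.one_ne_top h1
        simpa using this

/-- The universal per-cell inequality: the squared first moment of any cell is at most
`0.405` times its Gaussian measure. -/
lemma cell_universal (d : ℕ) (A : Set (EuclideanSpace ℝ (Fin d))) :
    ‖∫ x in A, x ∂(stdGaussian (EuclideanSpace ℝ (Fin d)))‖^2
      ≤ 0.405 * ((stdGaussian (EuclideanSpace ℝ (Fin d))) A).toReal := by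
  have hp1 : ((stdGaussian (EuclideanSpace ℝ (Fin d))) A).toReal ≤ 1 := by
    have h1 : (stdGaussian (EuclideanSpace ℝ (Fin d))) A ≤ 1 := prob_le_one
    have := ENNReal.toReal_mono ENNReal.one_ne_top h1
    simpa using this
  rcases le_total ((stdGaussian (EuclideanSpace ℝ (Fin d))) A).toReal 0.09 with h1 | h1
  · exact cell_small d A 0.6 0.09 0.1346 0.405 (by norm_num) h1 (by norm_num) (by norm_num)
      (by norm_num)
  rcases le_total ((stdGaussian (EuclideanSpace ℝ (Fin d))) A).toReal 0.233 with h2 | h2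
  · exact cell_interval d A 0.82 0.09 0.233 0.405 (by norm_num) h1 h2 (by norm_num)
      (by norm_num) (by norm_num)
  rcases le_total ((stdGaussian (EuclideanSpace ℝ (Fin d))) A).toReal 0.266 with h3 | h3
  · exact cell_interval d A 0.64 0.233 0.266 0.405 (by norm_num) h2 h3 (by norm_num)
      (by norm_num) (by norm_num)
  rcases le_total ((stdGaussian (EuclideanSpace ℝ (Fin d))) A).toReal 0.279 with h4 | h4
  · exact cell_interval d A 0.61 0.266 0.279 0.405 (by norm_num) h3 h4 (by norm_num)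
      (by norm_num) (by norm_num)
  rcases le_total ((stdGaussian (EuclideanSpace ℝ (Fin d))) A).toReal 0.348 with h5 | h5
  · exact cell_interval d A 0.57 0.279 0.348 0.405 (by norm_num) h4 h5 (by norm_num)
      (by norm_num) (by norm_num)
  · exact cell_interval d A 0.22 0.348 1 0.405 (by norm_num) h5 hp1 (by norm_num)
      (by norm_num) (by norm_num)

lemma nine_div_pi_gt : (0.358098 : ℝ) ≤ 9 / (8 * π) := by
  have hpi := Real.pi_lt_d6
  rw [le_div_iff₀ (by positivity)]
  nlinarith

/-- Cells of Gaussian measure at most `1/7` satisfy the per-cell inequality with the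
propeller constant `9 / (8 π)`. -/
lemma cell_propeller (d : ℕ) (A : Set (EuclideanSpace ℝ (Fin d)))
    (hA : ((stdGaussian (EuclideanSpace ℝ (Fin d))) A).toReal ≤ 1 / 7) :
    ‖∫ x in A, x ∂(stdGaussian (EuclideanSpace ℝ (Fin d)))‖^2
      ≤ 9 / (8 * π) * ((stdGaussian (EuclideanSpace ℝ (Fin d))) A).toReal := by
  have hp0 : 0 ≤ ((stdGaussian (EuclideanSpace ℝ (Fin d))) A).toReal := ENNReal.toReal_nonneg
  have hc := mul_le_mul_of_nonneg_right nine_div_pi_gt hp0
  refine le_trans ?_ hc
  rcases le_total ((stdGaussian (EuclideanSpace ℝ (Fin d))) A).toReal (1/16) with h1 | h1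
  · exact cell_small d A 0.57 (1/16) 0.11393 0.358098 (by norm_num) h1 (by norm_num)
      (by norm_num) (by norm_num)
  · exact cell_interval d A 1.05 (1/16) (1/7) 0.358098 (by norm_num) h1 hA (by norm_num)
      (by norm_num) (by norm_num)

/-- Every cell satisfies `‖z‖^2 ≤ 1 / (2 π)` (the half-space value). -/
lemma cell_half (d : ℕ) (A : Set (EuclideanSpace ℝ (Fin d))) :
    ‖∫ x in A, x ∂(stdGaussian (EuclideanSpace ℝ (Fin d)))‖^2 ≤ 1 / (2 * π) := by
  have h := cell_A d A 0 le_rfl
  have h' : ‖∫ x in A, x ∂(stdGaussian (EuclideanSpace ℝ (Fin d)))‖ ≤ phi0 := by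
    have e : (phi0 * (1 + (0:ℝ)^2/2 - (0:ℝ)^4/24 + (0:ℝ)^6/240) - 0/2)
        + 0 * ((stdGaussian (EuclideanSpace ℝ (Fin d))) A).toReal = phi0 := by ring
    rw [e] at h
    exact h
  have h2 := pow_le_pow_left₀ (norm_nonneg _) h' 2
  rw [phi0_sq] at h2
  exact h2

end

end Vale.Agent.Lib.P226
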