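import Mathlib

/-!
# One-dimensional Gaussian estimates used for P226

For the standard Gaussian measure on the real line we bound the truncated first and second
moments of the positive part of `x - t`.
-/

open MeasureTheory ProbabilityTheory Real Set

namespace Vale.Agent.Lib.P226

noncomputable section

/-- The value of the standard normal density at the origin. -/
def phi0 : ℝ := (√(2 * π))⁻¹

lemma phi0_pos : 0 < phi0 := by unfold phi0; positivity

lemma phi0_mul_sqrt : phi0 * √(2 * π) = 1 := by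
  unfold phi0
  have : √(2 * π) ≠ 0 := by positivity
  field_simp

lemma phi0_sq : phi0 ^ 2 = 1 / (2 * π) := by
  unfold phi0
  rw [inv_pow, Real.sq_sqrt (by positivity)]
  simp [one_div]

lemma phi0_lt : phi0 < 0.398943 := by
  by_contra h
  have h := not_lt.mp h
  have h2 : (0.398943 : ℝ) ^ 2 ≤ phi0 ^ 2 := pow_le_pow_left₀ (by norm_num) h 2
  rw [phi0_sq] at h2
  have hpi := Real.pi_gt_d6
  have hpos : (0:ℝ) < 2 * π := by positivity
  rw [le_div_iff₀ hpos] at h2
  nlinarith

lemma phi0_gt : 0.398942 < phi0 := by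
  by_contra h
  have h := not_lt.mp h
  have h2 : phi0 ^ 2 ≤ (0.398942 : ℝ) ^ 2 := pow_le_pow_left₀ phi0_pos.le h 2
  rw [phi0_sq] at h2
  have hpi := Real.pi_lt_d6
  have hpos : (0:ℝ) < 2 * π := by positivity
  rw [div_le_iff₀ hpos] at h2
  nlinarith

lemma pdf_eq (x : ℝ) : gaussianPDFReal 0 1 x = phi0 * rexp (-(1/2) * x^2) := by
  simp only [gaussianPDFReal, phi0, NNReal.coe_one, mul_one, sub_zero]
  congr 2
  ring

lemma I1 : ∫ x in Ioi (0:ℝ), rexp (-(1/2) * x^2) = √(2*π) / 2 := by
  rw [integral_gaussian_Ioi]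
  congr 2
  field_simp

lemma I2 : ∫ x in Ioi (0:ℝ), x * rexp (-(1/2) * x^2) = 1 := by
  have h := integral_rpow_mul_exp_neg_mul_rpow (p := 2) (q := 1) (b := 1/2)
    (by norm_num) (by norm_num) (by norm_num)
  have e : ∫ x in Ioi (0:ℝ), x * rexp (-(1/2) * x^2)
      = ∫ x in Ioi (0:ℝ), x ^ (1:ℝ) * rexp (-(1/2) * x ^ (2:ℝ)) := by
    refine setIntegral_congr_fun measurableSet_Ioi (fun x hx => ?_)
    simp
  rw [e, h]
  norm_num [Real.rpow_neg_one]

lemma I3 : ∫ x in Ioi (0:ℝ), x^2 * rexp (-(1/2) * x^2) = √(2*π) / 2 := by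
  have h := integral_rpow_mul_exp_neg_mul_rpow (p := 2) (q := 2) (b := 1/2)
    (by norm_num) (by norm_num) (by norm_num)
  have e : ∫ x in Ioi (0:ℝ), x^2 * rexp (-(1/2) * x^2)
      = ∫ x in Ioi (0:ℝ), x ^ (2:ℝ) * rexp (-(1/2) * x ^ (2:ℝ)) := by
    refine setIntegral_congr_fun measurableSet_Ioi (fun x hx => ?_)
    simp
  rw [e, h]
  have hG : Real.Gamma ((2 + 1) / 2) = √π / 2 := by
    have : ((2:ℝ) + 1) / 2 = 1/2 + 1 := by norm_num
    rw [this, Real.Gamma_add_one (by norm_num), Real.Gamma_one_half_eq]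
    ring
  rw [hG]
  have h2 : ((1:ℝ)/2) ^ (-(2 + 1) / 2 : ℝ) = 2 * √2 := by
    have : (-(2 + 1) / 2 : ℝ) = -(1 + 1/2) := by norm_num
    rw [this, Real.rpow_neg (by norm_num), ← Real.inv_rpow (by norm_num)]
    have h3 : ((1:ℝ)/2)⁻¹ = 2 := by norm_num
    rw [h3, Real.rpow_add (by norm_num), Real.rpow_one, ← Real.sqrt_eq_rpow]
  rw [h2, Real.sqrt_mul (by norm_num)]
  ring

lemma int0 : IntegrableOn (fun x : ℝ => rexp (-(1/2) * x^2)) (Ioi 0) :=
  (integrable_exp_neg_mul_sq (by norm_num : (0:ℝ) < 1/2)).integrableOn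

lemma int1 : IntegrableOn (fun x : ℝ => x * rexp (-(1/2) * x^2)) (Ioi 0) :=
  (integrable_mul_exp_neg_mul_sq (by norm_num : (0:ℝ) < 1/2)).integrableOn

lemma int2 : IntegrableOn (fun x : ℝ => x^2 * rexp (-(1/2) * x^2)) (Ioi 0) := by
  have h := integrable_rpow_mul_exp_neg_mul_sq (b := 1/2) (by norm_num) (s := 2) (by norm_num)
  have h' : Integrable (fun x : ℝ => x^2 * rexp (-(1/2) * x^2)) := by
    refine h.congr (Filter.Eventually.of_forall (fun x => ?_))
    simp
  exact h'.integrableOn

lemma exp_neg_le (y : ℝ) (hy : 0 ≤ y) : rexp (-y) ≤ 1 - y + y^2/2 := by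
  have h := Real.quadratic_le_exp_of_nonneg hy
  rw [Real.exp_neg]
  have hpos : 0 < 1 + y + y^2/2 := by positivity
  calc (rexp y)⁻¹ ≤ (1 + y + y^2/2)⁻¹ := inv_anti₀ hpos h
    _ ≤ 1 - y + y^2/2 := by
      rw [inv_eq_one_div, div_le_iff₀ hpos]
      nlinarith [sq_nonneg y, sq_nonneg (y^2)]

/-- Second truncated moment bound. -/
lemma trunc_sq_le (t : ℝ) (ht : 0 ≤ t) :
    ∫ x, (max (x - t) 0)^2 ∂(gaussianReal 0 1) ≤ 1/2 - 2 * phi0 * t + t^2/2 := by
  rw [integral_gaussianReal_eq_integral_smul (by norm_num : (1:NNReal) ≠ 0)]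
  have hs1 : IntegrableOn (fun x : ℝ => x^2 * rexp (-(1/2) * x^2)
      - 2 * t * (x * rexp (-(1/2) * x^2))) (Ioi 0) := int2.sub (int1.const_mul (2 * t))
  have hs2 : IntegrableOn (fun x : ℝ => x^2 * rexp (-(1/2) * x^2)
      - 2 * t * (x * rexp (-(1/2) * x^2)) + t^2 * rexp (-(1/2) * x^2)) (Ioi 0) :=
    hs1.add (int0.const_mul (t^2))
  have hg : IntegrableOn (fun x : ℝ => phi0 * (x^2 * rexp (-(1/2) * x^2)
      - 2 * t * (x * rexp (-(1/2) * x^2)) + t^2 * rexp (-(1/2) * x^2))) (Ioi 0) :=
    hs2.const_mul phi0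
  calc ∫ x, gaussianPDFReal 0 1 x • (max (x - t) 0)^2
      ≤ ∫ x, (Ioi (0:ℝ)).indicator (fun x : ℝ => phi0 * (x^2 * rexp (-(1/2) * x^2)
          - 2 * t * (x * rexp (-(1/2) * x^2)) + t^2 * rexp (-(1/2) * x^2))) x := by
        refine integral_mono_of_nonneg (Filter.Eventually.of_forall (fun x => ?_))
          (hg.integrable_indicator measurableSet_Ioi) (Filter.Eventually.of_forall (fun x => ?_))
        · exact smul_nonneg (gaussianPDFReal_nonneg _ _ _) (sq_nonneg _)
        · simp only [smul_eq_mul, pdf_eq]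
          have hE : 0 < rexp (-(1/2) * x^2) := Real.exp_pos _
          by_cases hx : x ∈ Ioi (0:ℝ)
          · rw [indicator_of_mem hx]
            have hx0 : 0 < x := hx
            have hle : (max (x - t) 0)^2 ≤ (x - t)^2 := by
              rcases le_total (x - t) 0 with h | h
              · rw [max_eq_right h]; nlinarith [sq_nonneg (x - t)]
              · rw [max_eq_left h]
            have := mul_le_mul_of_nonneg_left hle (mul_pos phi0_pos hE).le
            nlinarith [this]
          · rw [indicator_of_notMem hx]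
            have hx0 : x ≤ 0 := not_lt.mp hx
            rw [max_eq_right (by linarith)]
            simp
    _ = ∫ x in Ioi (0:ℝ), phi0 * (x^2 * rexp (-(1/2) * x^2)
          - 2 * t * (x * rexp (-(1/2) * x^2)) + t^2 * rexp (-(1/2) * x^2)) :=
        integral_indicator measurableSet_Ioi
    _ = phi0 * (√(2*π) / 2 - 2 * t * 1 + t^2 * (√(2*π) / 2)) := by
        rw [integral_const_mul, integral_add hs1 (int0.const_mul (t^2)),
          integral_sub int2 (int1.const_mul (2 * t)), integral_const_mul, integral_const_mul, I1, I2, I3]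
    _ = 1/2 - 2 * phi0 * t + t^2/2 := by
        have := phi0_mul_sqrt
        linear_combination (1/2 + t^2/2) * this

/-- First truncated moment bound. -/
lemma trunc_le (t : ℝ) (ht : 0 ≤ t) :
    ∫ x, max (x - t) 0 ∂(gaussianReal 0 1)
      ≤ phi0 * (1 + t^2/2 - t^4/24 + t^6/240) - t/2 := by
  rw [integral_gaussianReal_eq_integral_smul (by norm_num : (1:NNReal) ≠ 0)]
  have hs1 : IntegrableOn (fun x : ℝ => x * rexp (-(1/2) * x^2)
      - t * rexp (-(1/2) * x^2)) (Ioi 0) := int1.sub (int0.const_mul t)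
  have hg1 : IntegrableOn (fun x : ℝ => phi0 * (x * rexp (-(1/2) * x^2)
      - t * rexp (-(1/2) * x^2))) (Ioi 0) := hs1.const_mul phi0
  have hcont0 : Continuous (fun x : ℝ => (1 - x^2/2 + x^4/8) * (t - x)) := by fun_prop
  have hcont : Continuous (fun x : ℝ => phi0 * ((1 - x^2/2 + x^4/8) * (t - x))) := by fun_prop
  have hg2 : IntegrableOn (fun x : ℝ => phi0 * ((1 - x^2/2 + x^4/8) * (t - x))) (Ioc 0 t) :=
    (hcont.integrableOn_Icc).mono_set Ioc_subset_Icc_self
  calc ∫ x, gaussianPDFReal 0 1 x • max (x - t) 0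
      ≤ ∫ x, ((Ioi (0:ℝ)).indicator (fun x : ℝ => phi0 * (x * rexp (-(1/2) * x^2)
            - t * rexp (-(1/2) * x^2))) x
          + (Ioc (0:ℝ) t).indicator
            (fun x : ℝ => phi0 * ((1 - x^2/2 + x^4/8) * (t - x))) x) := by
        refine integral_mono_of_nonneg (Filter.Eventually.of_forall (fun x => ?_))
          ((hg1.integrable_indicator measurableSet_Ioi).add
            (hg2.integrable_indicator measurableSet_Ioc))
          (Filter.Eventually.of_forall (fun x => ?_))
        · exact smul_nonneg (gaussianPDFReal_nonneg _ _ _) (le_max_right _ _)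
        · simp only [smul_eq_mul, pdf_eq]
          have hE : 0 < rexp (-(1/2) * x^2) := Real.exp_pos _
          have hEle : rexp (-(1/2) * x^2) ≤ 1 - x^2/2 + x^4/8 := by
            have h := exp_neg_le (x^2/2) (by positivity)
            have e : -(x^2/2) = -(1/2) * x^2 := by ring
            rw [e] at h
            calc rexp (-(1/2) * x^2) ≤ 1 - x^2/2 + (x^2/2)^2/2 := h
              _ = 1 - x^2/2 + x^4/8 := by ring
          rcases le_or_gt x 0 with hx0 | hx0
          · have m1 : x ∉ Ioi (0:ℝ) := by simp [hx0]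
            have m2 : x ∉ Ioc (0:ℝ) t := fun h => absurd h.1 (not_lt.mpr hx0)
            rw [indicator_of_notMem m1, indicator_of_notMem m2, max_eq_right (by linarith)]
            simp
          · have m1 : x ∈ Ioi (0:ℝ) := hx0
            rcases le_or_gt x t with hxt | hxt
            · have m2 : x ∈ Ioc (0:ℝ) t := ⟨hx0, hxt⟩
              rw [indicator_of_mem m1, indicator_of_mem m2, max_eq_right (by linarith)]
              have h1 : 0 ≤ phi0 * ((t - x) * ((1 - x^2/2 + x^4/8) - rexp (-(1/2) * x^2))) :=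
                mul_nonneg phi0_pos.le (mul_nonneg (by linarith) (by linarith))
              nlinarith [h1]
            · have m2 : x ∉ Ioc (0:ℝ) t := fun h => absurd h.2 (not_le.mpr hxt)
              rw [indicator_of_mem m1, indicator_of_notMem m2, max_eq_left (by linarith)]
              apply le_of_eq
              ring
    _ = (∫ x in Ioi (0:ℝ), phi0 * (x * rexp (-(1/2) * x^2) - t * rexp (-(1/2) * x^2)))
          + ∫ x in Ioc (0:ℝ) t, phi0 * ((1 - x^2/2 + x^4/8) * (t - x)) := by
        rw [integral_add (hg1.integrable_indicator measurableSet_Ioi)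
            (hg2.integrable_indicator measurableSet_Ioc),
          integral_indicator measurableSet_Ioi, integral_indicator measurableSet_Ioc]
    _ = phi0 * (1 - t * (√(2*π) / 2)) + phi0 * (t^2/2 - t^4/24 + t^6/240) := by
        congr 1
        · rw [integral_const_mul, integral_sub int1 (int0.const_mul t), integral_const_mul, I1, I2]
        · rw [integral_const_mul, ← intervalIntegral.integral_of_le ht]
          congr 1
          have hderiv : ∀ x ∈ uIcc 0 t, HasDerivAt
              (fun x : ℝ => t * x - x^2/2 - t * x^3/6 + x^4/8 + t * x^5/40 - x^6/48)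
              ((1 - x^2/2 + x^4/8) * (t - x)) x := by
            intro x _
            have a0 := (hasDerivAt_id x).const_mul t
            have a1 := a0.sub ((hasDerivAt_pow 2 x).div_const 2)
            have a2 := a1.sub (((hasDerivAt_pow 3 x).const_mul t).div_const 6)
            have a3 := a2.add ((hasDerivAt_pow 4 x).div_const 8)
            have a4 := a3.add (((hasDerivAt_pow 5 x).const_mul t).div_const 40)
            have a5 := a4.sub ((hasDerivAt_pow 6 x).div_const 48)
            have key : HasDerivAt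
                (fun x : ℝ => t * x - x^2/2 - t * x^3/6 + x^4/8 + t * x^5/40 - x^6/48) _ x := a5
            convert key using 1
            norm_num
            ring
          rw [intervalIntegral.integral_eq_sub_of_hasDerivAt hderiv (hcont0.intervalIntegrable _ _)]
          ring
    _ = phi0 * (1 + t^2/2 - t^4/24 + t^6/240) - t/2 := by
        have := phi0_mul_sqrt
        linear_combination (-t/2) * this

end

end Vale.Agent.Lib.P226
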